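import Vale.Agent.P354K.Top
import Vale.Agent.P354IK.Kpd
import Vale.Agent.P354T.Basic
import Vale.Agent.P354JP.Main

/-!
From a deformation in a chart with compact support to data on the cylinder.
-/

open scoped ContDiff
open Set Filter Topology Matrix Metric

noncomputable section

namespace Vale.Agent.P354KU

open Vale.Agent.P354H (X3 e pd pdl tr)
open Vale.Agent.P354J (PD CC MS pb Phi Psi Jm Bd SL2 PDy)
open Vale.Agent.P354JK Vale.Agent.P354IK
open Vale.Agent.P354I (X ee Dat IsData kerr Sg bl wn)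
open Vale.Agent.P354K (M3 cube PUSH)
open Vale.Agent.P354E (sg)
open Vale.Agent.P354T (DSm)

/-- The coordinates of the chart as linear maps. -/
def lc (c : Fin 3) : X3 →L[ℝ] ℝ :=
  ![.fst ℝ ℝ _, (ContinuousLinearMap.fst ℝ ℝ ℝ).comp (.snd ℝ ℝ _),
    (ContinuousLinearMap.snd ℝ ℝ ℝ).comp (.snd ℝ ℝ _)] c

theorem lc_eq (c : Fin 3) (v : X3) : lc c v = cx v c := by fin_cases c <;> rfl

theorem cb {U K : Set X} (hU : IsOpen U) (hK : IsCompact K) (hKU : K ⊆ U) {ψ : X → X3}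
    (hψ : ContDiffOn ℝ ∞ ψ U) (m : ℕ) : ∀ (V : Type) [NormedAddCommGroup V] [NormedSpace ℝ V]
      (ι : Type) [Fintype ι] (a : ι → X → V), (∀ i, ContDiffOn ℝ ∞ (a i) U) → ∃ C, 0 ≤ C ∧
      ∀ (f : ι → X3 → ℝ) (c : ℝ), 0 ≤ c → (∀ i, ContDiff ℝ ∞ (f i)) → ∀ y ∈ K,
        (∀ i, Bd m (f i) (ψ y) c) →
        ‖iteratedFDeriv ℝ m (fun y => ∑ i, f i (ψ y) • a i y) y‖ ≤ C * c := by
  induction m with
  | zero =>
    intro V _ _ ι _ a ha
    choose B hB using fun i => hK.exists_bound_of_continuousOn ((ha i).continuousOn.mono hKU)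
    refine ⟨∑ i, |B i|, Finset.sum_nonneg fun _ _ => abs_nonneg _, fun f c hc _ y hy h => ?_⟩
    rw [norm_iteratedFDeriv_zero, Finset.sum_mul]
    refine norm_sum_le_of_le _ fun i _ => ?_
    rw [norm_smul, mul_comm]
    exact mul_le_mul ((hB i y hy).trans (le_abs_self _)) (h i).zero (norm_nonneg _) (abs_nonneg _)
  | succ m ih =>
    intro V _ _ ι _ a ha
    obtain ⟨C, h0, hC⟩ := ih (X →L[ℝ] V) (ι × Option (Fin 3)) (fun p y => p.2.elim
      (fderiv ℝ (a p.1) y) fun c => ((lc c).comp (fderiv ℝ ψ y)).smulRight (a p.1 y)) (by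
        rintro ⟨i, _ | c⟩
        · exact (ha i).fderiv_of_isOpen hU le_rfl
        · exact (contDiffOn_const.clm_comp (hψ.fderiv_of_isOpen hU le_rfl)).smulRight (ha i))
    refine ⟨C, h0, fun f c hc hf y hy h => ?_⟩
    rw [← norm_iteratedFDeriv_fderiv]
    refine le_of_eq_of_le ?_ (hC (fun p => p.2.elim (f p.1) fun c => pd c (f p.1)) c hc
      (by rintro ⟨i, _ | c⟩; exacts [hf i, P354H.pd_sm c (hf i)]) y hy
      (by rintro ⟨i, _ | c⟩; exacts [(h i).mono (Nat.le_succ m) le_rfl, (h i).pd c]))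
    refine congrArg norm (EventuallyEq.iteratedFDeriv ℝ ?_ m).eq_of_nhds
    filter_upwards [hU.mem_nhds (hKU hy)] with z hz
    have d1 := ((hψ.contDiffAt (hU.mem_nhds hz)).differentiableAt (by simp)).hasFDerivAt
    refine (HasFDerivAt.fun_sum fun i _ => (((P354H.dif (hf i) _).hasFDerivAt.comp z d1).fun_smul
      (((ha i).contDiffAt (hU.mem_nhds hz)).differentiableAt (by simp)).hasFDerivAt)).fderiv.trans ?_
    rw [Fintype.sum_prod_type]
    refine Finset.sum_congr rfl fun i _ => ?_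
    ext v
    simp only [Fintype.sum_option, Option.elim, _root_.add_apply,
      _root_.smul_apply, _root_.sum_apply, Function.comp_apply,
      ContinuousLinearMap.smulRight_apply, ContinuousLinearMap.comp_apply, smul_smul, lc_eq,
      ← Finset.sum_smul]
    congr 2
    conv_lhs => rw [eq_sum (fderiv ℝ ψ z v)]
    simp only [map_sum, map_smul, smul_eq_mul, pd, mul_comm]

/-- The denominator of the inverse chart. -/
def den (σ : Bool) (y : X) : ℝ := ‖y‖ + sg σ * y 2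

theorem ne_of_den {σ : Bool} {y : X} (h : den σ y ≠ 0) : y ≠ 0 := fun e => h (by simp [den, e])

theorem open_den (σ : Bool) : IsOpen {y | den σ y ≠ 0} :=
  isOpen_ne_fun (by unfold den; fun_prop) continuous_const

theorem den_ne (σ : Bool) (z : X3) : den σ (Phi σ z) ≠ 0 := ((inv σ).1 z).2.1

theorem psi_on (σ : Bool) : ContDiffOn ℝ ∞ (Psi σ) {y | den σ y ≠ 0} := fun _ h =>
  (psi_smooth σ (ne_of_den h) h).contDiffWithinAt

/-- The Jacobian of the inverse chart, and the push forward of a 2-tensor. -/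
def Nm (σ : Bool) (y : X) : M3 :=
  if den σ y = 0 then 0 else of fun i c => lc c (fderiv ℝ (Psi σ) y (ee i))
def pf (σ : Bool) (H : X3 → M3) (y : X) : M3 := Nm σ y * H (Psi σ y) * (Nm σ y)ᵀ

variable {σ : Bool} {y : X} {H : X3 → M3} {R : ℝ}

theorem nm_on (σ : Bool) (i c : Fin 3) : ContDiffOn ℝ ∞ (fun y => Nm σ y i c) {y | den σ y ≠ 0} :=
  ((lc c).contDiff.comp_contDiffOn (((psi_on σ).fderiv_of_isOpen (open_den σ) le_rfl).clm_apply
    (contDiffOn_const (c := ee i)))).congr fun y hy => by rw [Nm, if_neg hy]; rfl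

theorem nm_jm (h : den σ y ≠ 0) : Nm σ y * Jm σ (Psi σ y) = 1 := by
  ext i l
  simp only [Nm, if_neg h, mul_apply, of_apply, lc_eq, Jm_eq, DP_sum, DP_psi σ (ne_of_den h) h]
  simp [ee, one_apply, eq_comm]

theorem pb_pf (σ : Bool) (H : X3 → M3) : pb σ (pf σ H) = H := by
  funext z
  have h := mul_eq_one_comm.1 (nm_jm (den_ne σ z))
  rw [psi_phi] at h
  rw [pb, pf, psi_phi, ← Matrix.mul_assoc, ← Matrix.mul_assoc, h, Matrix.one_mul, Matrix.mul_assoc,
    ← transpose_mul, h, transpose_one, Matrix.mul_one]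

theorem pf_pb (h : den σ y ≠ 0) (F : X → M3) : pf σ (pb σ F) y = F y := by
  rw [pf, pb, phi_psi σ (ne_of_den h) h, ← Matrix.mul_assoc, ← Matrix.mul_assoc, nm_jm h,
    Matrix.one_mul, Matrix.mul_assoc, ← transpose_mul, nm_jm h, transpose_one, Matrix.mul_one]

theorem pb_add (σ : Bool) (F G : X → M3) : pb σ (F + G) = pb σ F + pb σ G := by
  funext z
  simp only [pb, Pi.add_apply, Matrix.mul_add, Matrix.add_mul]

theorem pf_eq (σ : Bool) (H : X3 → M3) (i k : Fin 3) : (fun y => pf σ H y i k) = fun y =>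
    ∑ p : Fin 3 × Fin 3, H (Psi σ y) p.2 p.1 • (Nm σ y i p.2 * Nm σ y k p.1) := by
  funext y
  simp only [pf, mul_apply, transpose_apply, Fintype.sum_prod_type, Finset.sum_mul, smul_eq_mul]
  exact Finset.sum_congr rfl fun _ _ => Finset.sum_congr rfl fun _ _ => by ring

/-- The support of the push forward. -/
def KK (σ : Bool) (R : ℝ) : Set X := Phi σ '' closedBall (R, 0, 0) 4

theorem kk_cpt (σ : Bool) (R : ℝ) : IsCompact (KK σ R) :=
  (isCompact_closedBall _ _).image (phi_smooth σ).continuous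

theorem kk_sub (σ : Bool) (R : ℝ) : KK σ R ⊆ {y | den σ y ≠ 0} := by
  rintro _ ⟨z, -, rfl⟩
  exact den_ne σ z

theorem pf_zero (h : ∀ z : X3, z - (R, 0, 0) ∉ cube → H z = 0) (hy : y ∉ KK σ R) :
    pf σ H =ᶠ[𝓝 y] fun _ => 0 := by
  filter_upwards [(kk_cpt σ R).isClosed.isOpen_compl.mem_nhds hy] with y hy
  by_cases h0 : den σ y = 0
  · simp [pf, Nm, h0]
  · rw [pf, h _ fun hc => hy ⟨_, mem_closedBall_iff_norm.2 ?_, phi_psi σ (ne_of_den h0) h0⟩]
    · simp
    have := Real.pi_lt_four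
    exact max_le ((hc 0).trans this).le (max_le ((hc 1).trans this).le ((hc 2).trans this).le)

theorem pf_sm (hH : MS H) (h : ∀ z : X3, z - (R, 0, 0) ∉ cube → H z = 0) (i k : Fin 3) :
    ContDiff ℝ ∞ fun y => pf σ H y i k := by
  refine contDiff_iff_contDiffAt.2 fun y => ?_
  by_cases hy : y ∈ KK σ R
  · rw [pf_eq]
    exact (ContDiffOn.sum fun p _ => ((hH _ _).comp_contDiffOn (psi_on σ)).smul
      ((nm_on σ _ _).mul (nm_on σ _ _))).contDiffAt ((open_den σ).mem_nhds (kk_sub σ R hy))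
  · exact (contDiffAt_const (c := 0)).congr_of_eventuallyEq
      ((pf_zero h hy).mono fun z hz => by simp [hz])

theorem den_smul (σ : Bool) (R : ℝ) (y : X) : den σ (Real.exp R • y) = Real.exp R * den σ y := by
  rw [den, den, norm_smul, Real.norm_of_nonneg (Real.exp_pos R).le, PiLp.smul_apply, smul_eq_mul]
  ring

theorem psi_smul (hy : y ≠ 0) : Psi σ (Real.exp R • y) = Psi σ y + (R, 0, 0) := by
  have h := den_smul σ R y
  have he := (Real.exp_pos R).ne'
  rw [den, den] at h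
  rw [Psi, Psi, h, norm_smul, Real.norm_of_nonneg (Real.exp_pos R).le,
    Real.log_mul he (norm_ne_zero_iff.2 hy), Real.log_exp]
  simp [mul_div_mul_left _ _ he, add_comm]

theorem nm_smul (σ : Bool) (R : ℝ) (y : X) : Real.exp R • Nm σ (Real.exp R • y) = Nm σ y := by
  by_cases h : den σ y = 0
  · simp [Nm, den_smul, h]
  have e : (fun y => Psi σ (Real.exp R • y)) =ᶠ[𝓝 y] fun y => Psi σ y + (R, 0, 0) :=
    (eventually_ne_nhds (ne_of_den h)).mono fun z hz => psi_smul hz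
  have e2 := e.fderiv_eq (𝕜 := ℝ)
  rw [fderiv_comp_smul, fderiv_add_const] at e2
  ext i c
  simp [Nm, den_smul, h, ← e2]

theorem pf_smul (σ : Bool) (H : X3 → M3) (R : ℝ) (y : X) :
    pf σ (tr (R, 0, 0) H) y = Real.exp R ^ 2 • pf σ H (Real.exp R • y) := by
  by_cases h : den σ y = 0
  · simp [pf, Nm, den_smul, h]
  rw [pf, pf, ← nm_smul σ R y, psi_smul (ne_of_den h), tr]
  simp only [transpose_smul, Matrix.smul_mul, Matrix.mul_smul, smul_smul, sq]

theorem pf_bd (s : ℝ) (m : ℕ) (hs : 0 ≤ s) : ∃ C : ℝ, 0 ≤ C ∧ ∀ σ (H : X3 → M3) (R c : ℝ), MS H →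
    (∀ z : X3, z - (R, 0, 0) ∉ cube → H z = 0) → (∀ α : List (Fin 3), α.length ≤ m → ∀ y i j,
      |pdl α (fun z => H z i j) y| ≤ c) → ∀ i k,
      wn s m (fun y => pf σ H y i k) ≤ ENNReal.ofReal (C * c * (1 + |R|) ^ s) := by
  choose C h0 hC using fun (p : Bool × Fin 3 × Fin 3 × Fin (m + 1)) => cb (open_den p.1)
    (kk_cpt p.1 0) (kk_sub p.1 0) (psi_on p.1) p.2.2.2 ℝ (Fin 3 × Fin 3)
    (fun q y => Nm p.1 y p.2.1 q.2 * Nm p.1 y p.2.2.1 q.1) fun q => (nm_on _ _ _).mul (nm_on _ _ _)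
  have h1 : 0 ≤ ∑ p, C p := Finset.sum_nonneg fun p _ => h0 p
  refine ⟨(m + 1) * (5 ^ s * Real.exp 4 ^ (2 + m) * ∑ p, C p), by positivity,
    fun σ H R c hH h2 h3 i k => ?_⟩
  have hc : 0 ≤ c := (abs_nonneg _).trans (h3 [] (Nat.zero_le _) 0 0 0)
  rw [mul_assoc, mul_assoc]
  refine P354T.wn_le_of fun j hj y _ => ?_
  by_cases hy : y ∈ KK σ R
  swap
  · have e : (fun y => pf σ H y i k) =ᶠ[𝓝 y] fun _ => 0 :=
      (pf_zero h2 hy).mono fun z hz => by simp [hz]
    rw [(e.iteratedFDeriv ℝ j).eq_of_nhds]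
    simp only [iteratedFDeriv_fun_zero, Pi.zero_apply, norm_zero, mul_zero]
    positivity
  obtain ⟨z, hz, rfl⟩ := hy
  rw [mem_closedBall_iff_norm] at hz
  have z1 : |z.1 - R| ≤ 4 := (norm_fst_le (z - (R, 0, 0))).trans hz
  have e0 : Phi σ z = Real.exp R • Phi σ (z - (R, 0, 0)) := by
    simp [Phi, smul_smul, ← Real.exp_add, show ((0 : ℝ), (0 : ℝ)) = 0 from rfl]
  have e1 := hC (σ, i, k, ⟨j, Nat.lt_succ_of_le hj⟩) (fun q => tr (R, 0, 0) fun z => H z q.2 q.1) c hc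
    (fun q => P354H.tr_sm _ (hH _ _)) _ ⟨z - (R, 0, 0), mem_closedBall_zero_iff.2 hz, rfl⟩
    fun q α hα => by rw [P354H.pdl_tr]; exact h3 α (hα.trans hj) _ _ _
  have e2 := pf_sm (σ := σ) hH h2 i k
  erw [← pf_eq σ (tr (R, 0, 0) H) i k] at e1
  simp only [pf_smul, Matrix.smul_apply] at e1
  rw [iteratedFDeriv_const_smul_apply' (f := fun y => pf σ H (Real.exp R • y) i k)
    (((e2.comp (contDiff_const_smul _)).of_le (by exact_mod_cast le_top)).contDiffAt),
    iteratedFDeriv_comp_const_smul _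
      (e2.of_le (by exact_mod_cast le_top)), smul_smul, ← pow_add, norm_smul, ← e0,
    Real.norm_of_nonneg (by positivity)] at e1
  have e3 : √(1 + z.1 ^ 2) ^ s ≤ 5 ^ s * (1 + |R|) ^ s := by
    rw [← Real.mul_rpow (by norm_num) (by positivity)]
    refine Real.rpow_le_rpow (Real.sqrt_nonneg _) (Real.sqrt_le_iff.2 ⟨by positivity, ?_⟩) hs
    have := abs_sub_abs_le_abs_sub z.1 R
    rw [← sq_abs z.1]
    nlinarith [abs_nonneg z.1, abs_nonneg R]
  have e4 : Real.exp z.1 ^ (2 + j) ≤ Real.exp 4 ^ (2 + m) * Real.exp R ^ (2 + j) := by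
    refine le_trans ?_ (mul_le_mul_of_nonneg_right (pow_le_pow_right₀
      (Real.one_le_exp (by norm_num)) (Nat.add_le_add_left hj 2)) (by positivity))
    rw [← mul_pow, ← Real.exp_add]
    exact pow_le_pow_left₀ (Real.exp_pos _).le (Real.exp_le_exp.2 (by linarith [(abs_le.1 z1).2])) _
  rw [P354T.wt, norm_phi, Real.log_exp]
  refine (mul_le_mul_of_nonneg_right (mul_le_mul e3 e4 (by positivity) (by positivity))
    (norm_nonneg _)).trans ?_
  have e5 := mul_le_mul_of_nonneg_left (e1.trans (mul_le_mul_of_nonneg_right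
    (Finset.single_le_sum (fun p _ => h0 p) (Finset.mem_univ _)) hc))
    (show 0 ≤ 5 ^ s * (1 + |R|) ^ s * Real.exp 4 ^ (2 + m) by positivity)
  linarith

theorem kerr_sm (M a r : ℝ) : DSm (kerr M a r) := fun i j => by
  have hS : r ≠ 0 → ∀ y, 0 < Sg a r y := fun h y => by unfold Sg; positivity
  refine ⟨fun y hy => ContDiffAt.contDiffWithinAt ?_, fun y hy => ContDiffAt.contDiffWithinAt ?_⟩
  · have h1 : ContDiffAt ℝ ∞ (fun z => 2 * M * r / Sg a r z) y := by
      rcases eq_or_ne r 0 with rfl | h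
      · simpa using contDiffAt_const
      · exact contDiffAt_const.div (cd_Sg hy a r) (hS h y).ne'
    have hv := fun i => cd_tw hy (a / (P354I.rm M a ^ 2 + a ^ 2)) (ee i)
    exact ((((cd_dT hy (hv i)).mul (cd_dT hy (hv j))).neg.add (h1.mul (cd_X hy (hv i) (hv j)))).add
      ((cd_Sg hy a r).mul (cd_rnd hy (hv i) (hv j)))).add
      (contDiffAt_const.mul ((cd_dP hy (hv i)).mul (cd_dP hy (hv j))))
  rcases le_or_gt 0 (r ^ 2 - 2 * M * r + a ^ 2) with hD | hD
  · refine (contDiffAt_const (c := 0)).congr_of_eventuallyEq (Eventually.of_forall fun z => ?_)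
    simp only [kerr, of_apply]
    rw [Real.sqrt_eq_zero'.2 (div_nonpos_of_nonpos_of_nonneg (neg_nonpos.2 hD)
      (by unfold Sg; positivity))]
    simp
  have hr : r ≠ 0 := by rintro rfl; nlinarith [sq_nonneg a]
  have h2 : ∀ y v w, deriv (fun s => bl M a s y v w) r = bl' M a r y v w := fun y v w => by
    have h1 : HasDerivAt (fun s => Sg a s y) (2 * r) r := by
      simpa [Sg] using (hasDerivAt_pow 2 r).add_const (a ^ 2 * (y 2 ^ 2 / ‖y‖ ^ 2))
    refine HasDerivAt.deriv ((((((((hasDerivAt_id' r).const_mul (2 * M)).fun_div h1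
      (hS hr y).ne').mul_const _).const_add _).fun_add (h1.mul_const _)).add_const _).congr_deriv ?_)
    rw [bl']
    ring
  have hv := fun i => cd_tw hy (a / (P354I.rm M a ^ 2 + a ^ 2)) (ee i)
  simp only [kerr, of_apply, P354I.kh, h2]
  exact (((contDiffAt_const.div (cd_Sg hy a r) (hS hr y).ne').sqrt
    (div_pos (neg_pos.2 hD) (hS hr y)).ne').neg.div_const 2).mul
    ((((contDiffAt_const.mul ((cd_Sg hy a r).sub contDiffAt_const)).div ((cd_Sg hy a r).pow 2)
      (pow_ne_zero 2 (hS hr y).ne')).mul (cd_X hy (hv i) (hv j))).add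
      (contDiffAt_const.mul (cd_rnd hy (hv i) (hv j))))

/-- The constraints are local. -/
theorem loc {d d' : Dat} (h1 : d'.h =ᶠ[𝓝 y] d.h) (h2 : d'.K =ᶠ[𝓝 y] d.K) :
    d'.scal y = d.scal y ∧ d'.trK =ᶠ[𝓝 y] d.trK ∧ d'.sqK y = d.sqK y ∧
      ∀ j, d'.divK j y = d.divK j y := by
  have e : ∀ {F G : X → M3} {z : X}, F =ᶠ[𝓝 z] G → ∀ i a b,
      P354I.pd i (fun z => F z a b) z = P354I.pd i (fun z => G z a b) z := fun h i a b => by
    rw [P354I.pd, P354I.pd, EventuallyEq.fderiv_eq (h.mono fun w hw => by rw [hw])]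
  have c : ∀ k i j, d'.chr k i j =ᶠ[𝓝 y] d.chr k i j := fun k i j =>
    h1.eventually_nhds.mono fun z hz => by simp only [Dat.chr, e hz, EventuallyEq.eq_of_nhds hz]
  refine ⟨?_, ?_, ?_, fun j => ?_⟩
  · simp only [Dat.scal, Dat.ric, P354I.pd, (c _ _ _).fderiv_eq, (c _ _ _).eq_of_nhds,
      h1.eq_of_nhds]
  · filter_upwards [h1, h2] with z a b
    simp only [Dat.trK, a, b]
  · simp only [Dat.sqK, h1.eq_of_nhds, h2.eq_of_nhds]
  · simp only [Dat.divK, e h2, (c _ _ _).eq_of_nhds, h1.eq_of_nhds, h2.eq_of_nhds]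

theorem all_bd (hH : MS H) (h : ∀ z : X3, z - (R, 0, 0) ∉ cube → H z = 0) (m : ℕ) :
    ∃ c, ∀ α : List (Fin 3), α.length ≤ m → ∀ y i j, |pdl α (fun z => H z i j) y| ≤ c := by
  choose C h0 hC using fun p : Fin 3 × Fin 3 =>
    P354JP.bd_compact m (isCompact_closedBall ((R, 0, 0) : X3) 4) (hH p.1 p.2)
  refine ⟨∑ p, C p, fun α hα y i j => le_trans ?_
    (Finset.single_le_sum (fun p _ => h0 p) (Finset.mem_univ (i, j)))⟩
  by_cases hy : y ∈ closedBall ((R, 0, 0) : X3) 4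
  · exact hC (i, j) y hy α hα
  have e : ∀ (α : List (Fin 3)) (f : X3 → ℝ), f =ᶠ[𝓝 y] 0 → pdl α f y = 0 := fun α => by
    induction α with
    | nil => exact fun f hf => hf.eq_of_nhds
    | cons a α ih => exact fun f hf => ih _ (hf.eventually_nhds.mono fun z hz => by
        rw [pd, EventuallyEq.fderiv_eq hz]; simp)
  rw [e α _ (mem_of_superset (isClosed_closedBall.isOpen_compl.mem_nhds hy) fun z hz => ?_), abs_zero]
  · exact h0 _
  have := Real.pi_lt_four
  show H z i j = 0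
  rw [h z fun hc => hz (mem_closedBall_iff_norm.2
    (max_le ((hc 0).trans this).le (max_le ((hc 1).trans this).le ((hc 2).trans this).le)))]
  rfl

/-- **PUSH.** -/
theorem push (hS : SL2) : PUSH := by
  intro s m hs
  obtain ⟨C, h0, hC⟩ := pf_bd s m hs
  refine ⟨18 * C, by positivity, fun M a r0 σ d h' K' R c hd hP hc h1 h2 => ?_⟩
  have hd0 := (hS d σ ⟨hd.smooth, hd.pos⟩).1
  have sh : MS h' := fun i j => by simpa using (hP.sh i j).sub (hd0.sh i j)
  have sK : MS K' := fun i j => by simpa using (hP.sK i j).sub (hd0.sK i j)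
  have z1 := fun z hz => (h1 z hz).1
  have z2 := fun z hz => (h1 z hz).2
  let d' : Dat := ⟨d.h + pf σ h', d.K + pf σ K'⟩
  have e1 : pb σ d'.h = pb σ d.h + h' := by rw [pb_add, pb_pf]
  have e2 : pb σ d'.K = pb σ d.K + K' := by rw [pb_add, pb_pf]
  have sm : DSm d' := fun i j => ⟨(hd.smooth i j).1.add (pf_sm sh z1 i j).contDiffOn,
    (hd.smooth i j).2.add (pf_sm sK z2 i j).contDiffOn⟩
  have lo : ∀ y, den σ y = 0 → d'.h =ᶠ[𝓝 y] d.h ∧ d'.K =ᶠ[𝓝 y] d.K := fun y hy =>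
    ⟨(pf_zero z1 fun h => kk_sub σ R h hy).mono fun z hz => by simp [d', hz],
      (pf_zero z2 fun h => kk_sub σ R h hy).mono fun z hz => by simp [d', hz]⟩
  have po : ∀ y ≠ 0, (d'.h y).PosDef ∧ (d'.K y).IsSymm := fun y hy => by
    by_cases h : den σ y = 0
    · rw [(lo y h).1.eq_of_nhds, (lo y h).2.eq_of_nhds]
      exact hd.pos y hy
    rw [← pf_pb h d'.h, ← pf_pb h d'.K, e1, e2]
    refine ⟨(hP.pos _).1.mul_mul_conjTranspose_same (vecMul_injective_iff_isUnit.2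
      (IsUnit.of_mul_eq_one _ (nm_jm h))), ?_⟩
    rw [pf, IsSymm, transpose_mul, transpose_mul, transpose_transpose, (hP.pos _).2,
      Matrix.mul_assoc]
  have co : ∀ y ≠ 0, d'.scal y + d'.trK y ^ 2 - d'.sqK y = 0 ∧
      ∀ j, d'.divK j y - P354I.pd j d'.trK y = 0 := fun y hy => by
    by_cases h : den σ y = 0
    · obtain ⟨a1, a2, a3, a4⟩ := loc (lo y h).1 (lo y h).2
      rw [a1, a2.eq_of_nhds, a3]
      exact ⟨hd.hamilton y hy, fun j => by
        rw [a4, P354I.pd, a2.fderiv_eq]; exact hd.momentum y hy j⟩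
    · rw [← phi_psi σ hy h]
      exact ((hS d' σ ⟨sm, po⟩).2 _).1 (e1 ▸ e2 ▸ hc _)
  have key : ∀ {m : ℕ} {η : ℝ}, 0 ≤ η → (∀ i j, wn s m (fun y => pf σ h' y i j) ≤ ENNReal.ofReal η ∧
      wn s m (fun y => pf σ K' y i j) ≤ ENNReal.ofReal η) →
      P354I.pm s m d' d ≤ ENNReal.ofReal (18 * η) := fun hη h =>
    P354T.pm_le_of hη fun i j => by simpa [d'] using h i j
  have hc0 : 0 ≤ c := (abs_nonneg _).trans (h2 [] (Nat.zero_le _) 0 0 0).1
  refine ⟨d', ⟨sm, po, fun k => ?_, fun y hy => (co y hy).1, fun y hy => (co y hy).2⟩, e1, e2, ?_⟩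
  · obtain ⟨D, hD0, hD⟩ := pf_bd s k hs
    obtain ⟨c1, b1⟩ := all_bd sh z1 k
    obtain ⟨c2, b2⟩ := all_bd sK z2 k
    refine (P354T.pm_tri s k sm hd.smooth (kerr_sm M a r0)).trans_lt (ENNReal.add_lt_top.2
      ⟨(key (η := D * max 0 (max c1 c2) * (1 + |R|) ^ s) (by positivity) fun i j =>
        ⟨hD σ h' R _ sh z1 (fun α hα y i j => (b1 α hα y i j).trans (by simp)) i j,
          hD σ K' R _ sK z2 (fun α hα y i j => (b2 α hα y i j).trans (by simp)) i j⟩).trans_lt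
        ENNReal.ofReal_lt_top, hd.finite k⟩)
  · rw [mul_assoc, mul_assoc, ← mul_assoc C]
    exact key (by positivity) fun i j => ⟨hC σ h' R c sh z1 (fun α hα y i j => (h2 α hα y i j).1) i j,
      hC σ K' R c sK z2 (fun α hα y i j => (h2 α hα y i j).2) i j⟩

end Vale.Agent.P354KU
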